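import Vale.Agent.Lib.P101.Limits

/-!
# Characters of `F_ω(A)` from asymptotically multiplicative functionals
-/

open scoped BoundedContinuousFunction
open Filter Topology

noncomputable section

namespace Vale.Agent.Lib.P101

universe u

variable {A : Type u} [CStarAlgebra A]

/-- A continuous linear functional `ψ` on `A` which is unital, hermitian and asymptotically
multiplicative on central sequences induces a character of `F_ω(A)`: the `ω`-limit of `ψ`. -/
def charOfAsympMult (ω : Ultrafilter ℕ) (ψ : A →L[ℂ] ℂ) (h1 : ψ 1 = 1)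
    (hstar : ∀ a, ψ (star a) = star (ψ a))
    (hmul : ∀ x y : ℕ →ᵇ A, Ideal.Quotient.mk (nullIdeal A ω) x ∈ centralSeqAlg A ω →
      Ideal.Quotient.mk (nullIdeal A ω) y ∈ centralSeqAlg A ω →
      Tendsto (fun k => ψ (x k * y k) - ψ (x k) * ψ (y k)) ω (𝓝 0)) :
    centralSeqAlg A ω →⋆ₐ[ℂ] ℂ where
  toFun q := ulimQ ω ψ q.1
  map_one' := by
    show ulim A ω ψ 1 = 1
    apply ulim_eq
    have : ∀ k, ψ ((1 : ℕ →ᵇ A) k) = 1 := fun k => h1
    simp only [this]
    exact tendsto_const_nhds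
  map_mul' := by
    rintro ⟨p, hp⟩ ⟨q, hq⟩
    obtain ⟨x, rfl⟩ := Ideal.Quotient.mk_surjective p
    obtain ⟨y, rfl⟩ := Ideal.Quotient.mk_surjective q
    show ulim A ω ψ (x * y) = ulim A ω ψ x * ulim A ω ψ y
    apply ulim_eq
    have h := (hmul x y hp hq).add ((tendsto_ulim ω ψ x).mul (tendsto_ulim ω ψ y))
    rw [zero_add] at h
    refine h.congr fun k => ?_
    show ψ (x k * y k) - ψ (x k) * ψ (y k) + ψ (x k) * ψ (y k) = ψ (x k * y k)
    ring
  map_zero' := by
    show ulim A ω ψ 0 = 0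
    exact ulim_eq_zero_of_mem ω _ (Ideal.zero_mem _)
  map_add' := by
    rintro ⟨p, hp⟩ ⟨q, hq⟩
    obtain ⟨x, rfl⟩ := Ideal.Quotient.mk_surjective p
    obtain ⟨y, rfl⟩ := Ideal.Quotient.mk_surjective q
    exact ulim_add ω _ x y
  commutes' := by
    intro c
    show ulim A ω ψ (algebraMap ℂ (ℕ →ᵇ A) c) = c
    apply ulim_eq
    have : ∀ k, ψ ((algebraMap ℂ (ℕ →ᵇ A) c) k) = c := by
      intro k
      show ψ (algebraMap ℂ A c) = c
      rw [Algebra.algebraMap_eq_smul_one, map_smul, h1]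
      simp
    simp only [this]
    exact tendsto_const_nhds
  map_star' := by
    rintro ⟨p, hp⟩
    obtain ⟨x, rfl⟩ := Ideal.Quotient.mk_surjective p
    show ulim A ω ψ (star x) = star (ulim A ω ψ x)
    apply ulim_eq
    have h := (tendsto_ulim ω ψ x).star
    refine h.congr fun k => ?_
    show star (ψ (x k)) = ψ (star (x k))
    rw [hstar]

end Vale.Agent.Lib.P101

end
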