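import Mathlib

/-!
# Ultrapowers and central sequence algebras of unital C*-algebras

For a unital C*-algebra `A` and an ultrafilter `ω` on `ℕ` we define

* the algebra `ℓ^∞(ℕ, A)` of bounded sequences in `A` is Mathlib's `ℕ →ᵇ A`, the bounded
  (continuous) functions on the discrete space `ℕ`;
* `nullIdeal A ω`: the two-sided ideal of `ℓ^∞(ℕ, A)` of sequences with `lim_ω ‖a_n‖ = 0`;
* `Ultrapower A ω = ℓ^∞(ℕ, A) ⧸ nullIdeal A ω` with its quotient ring, `ℂ`-algebra and
  star structure;
* `constEmb A ω : A → Ultrapower A ω`, the constant-sequence embedding;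
* `centralSeqAlg A ω`, the commutant of the image of `A` in `Ultrapower A ω`.
-/

open scoped BoundedContinuousFunction
open Filter Topology

noncomputable section

namespace Vale.Agent.Lib.P101

universe u

variable (A : Type u) [CStarAlgebra A]

/-- The two-sided ideal of `ℓ^∞(ℕ, A)` of sequences `(a_n)` with `lim_{n → ω} ‖a_n‖ = 0`. -/
def nullIdeal (ω : Ultrafilter ℕ) : Ideal (ℕ →ᵇ A) where
  carrier := {x | Tendsto (fun n => ‖x n‖) ω (𝓝 0)}
  add_mem' := by
    intro x y hx hy
    have hx' : Tendsto (fun n => ‖x n‖) ω (𝓝 0) := hx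
    have hy' : Tendsto (fun n => ‖y n‖) ω (𝓝 0) := hy
    have h := hx'.add hy'
    rw [add_zero] at h
    exact squeeze_zero (fun n => norm_nonneg _) (fun n => norm_add_le (x n) (y n)) h
  zero_mem' := by
    show Tendsto (fun n => ‖(0 : ℕ →ᵇ A) n‖) ω (𝓝 0)
    simp
  smul_mem' := by
    intro c x hx
    have hx' : Tendsto (fun n => ‖x n‖) ω (𝓝 0) := hx
    have h := hx'.const_mul ‖c‖
    rw [mul_zero] at h
    refine squeeze_zero (fun n => norm_nonneg _) (fun n => ?_) h
    calc ‖(c • x) n‖ = ‖c n * x n‖ := rfl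
      _ ≤ ‖c n‖ * ‖x n‖ := norm_mul_le _ _
      _ ≤ ‖c‖ * ‖x n‖ :=
        mul_le_mul_of_nonneg_right (c.norm_coe_le_norm n) (norm_nonneg _)

variable {A} in
theorem mem_nullIdeal {ω : Ultrafilter ℕ} {x : ℕ →ᵇ A} :
    x ∈ nullIdeal A ω ↔ Tendsto (fun n => ‖x n‖) ω (𝓝 0) := Iff.rfl

instance nullIdeal_isTwoSided (ω : Ultrafilter ℕ) : (nullIdeal A ω).IsTwoSided where
  mul_mem_of_left := by
    intro x c hx
    rw [mem_nullIdeal] at hx ⊢
    have h := hx.mul_const ‖c‖
    rw [zero_mul] at h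
    refine squeeze_zero (fun n => norm_nonneg _) (fun n => ?_) h
    calc ‖(x * c) n‖ = ‖x n * c n‖ := rfl
      _ ≤ ‖x n‖ * ‖c n‖ := norm_mul_le _ _
      _ ≤ ‖x n‖ * ‖c‖ :=
        mul_le_mul_of_nonneg_left (c.norm_coe_le_norm n) (norm_nonneg _)

/-- The ultrapower `A_ω = ℓ^∞(ℕ, A) / {(a_n) : lim_ω ‖a_n‖ = 0}`. -/
abbrev Ultrapower (ω : Ultrafilter ℕ) : Type u := (ℕ →ᵇ A) ⧸ nullIdeal A ω

theorem star_mem_nullIdeal {ω : Ultrafilter ℕ} {x : ℕ →ᵇ A}
    (hx : x ∈ nullIdeal A ω) : star x ∈ nullIdeal A ω := by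
  rw [mem_nullIdeal] at hx ⊢
  simpa using hx

theorem star_rel (ω : Ultrafilter ℕ) (x y : ℕ →ᵇ A)
    (h : (Submodule.quotientRel (nullIdeal A ω)) x y) :
    (Submodule.quotientRel (nullIdeal A ω)) (star x) (star y) := by
  rw [Submodule.quotientRel_def] at h ⊢
  have := star_mem_nullIdeal A h
  rwa [star_sub] at this

/-- The involution of `A_ω`, induced by the entrywise involution of sequences. -/
instance ultrapowerStar (ω : Ultrafilter ℕ) : Star (Ultrapower A ω) where
  star := Quotient.map' star (star_rel A ω)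

theorem star_mk (ω : Ultrafilter ℕ) (x : ℕ →ᵇ A) :
    star (Ideal.Quotient.mk (nullIdeal A ω) x) = Ideal.Quotient.mk (nullIdeal A ω) (star x) :=
  rfl

theorem ultrapower_star_star (ω : Ultrafilter ℕ) (x : Ultrapower A ω) : star (star x) = x := by
  obtain ⟨x, rfl⟩ := Ideal.Quotient.mk_surjective x
  show Ideal.Quotient.mk (nullIdeal A ω) (star (star x)) = Ideal.Quotient.mk (nullIdeal A ω) x
  rw [star_star]

theorem ultrapower_star_mul (ω : Ultrafilter ℕ) (x y : Ultrapower A ω) :
    star (x * y) = star y * star x := by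
  obtain ⟨x, rfl⟩ := Ideal.Quotient.mk_surjective x
  obtain ⟨y, rfl⟩ := Ideal.Quotient.mk_surjective y
  show Ideal.Quotient.mk (nullIdeal A ω) (star (x * y))
    = Ideal.Quotient.mk (nullIdeal A ω) (star y * star x)
  rw [star_mul]

theorem ultrapower_star_add (ω : Ultrafilter ℕ) (x y : Ultrapower A ω) :
    star (x + y) = star x + star y := by
  obtain ⟨x, rfl⟩ := Ideal.Quotient.mk_surjective x
  obtain ⟨y, rfl⟩ := Ideal.Quotient.mk_surjective y
  show Ideal.Quotient.mk (nullIdeal A ω) (star (x + y))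
    = Ideal.Quotient.mk (nullIdeal A ω) (star x + star y)
  rw [star_add]

instance ultrapowerStarRing (ω : Ultrafilter ℕ) : StarRing (Ultrapower A ω) where
  star_involutive := ultrapower_star_star A ω
  star_mul := ultrapower_star_mul A ω
  star_add := ultrapower_star_add A ω

instance ultrapowerStarModule (ω : Ultrafilter ℕ) : StarModule ℂ (Ultrapower A ω) where
  star_smul := by
    intro c x
    obtain ⟨x, rfl⟩ := Ideal.Quotient.mk_surjective x
    show Ideal.Quotient.mk (nullIdeal A ω) (star (c • x))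
      = Ideal.Quotient.mk (nullIdeal A ω) (star c • star x)
    rw [star_smul]

theorem constEmb_map_star (ω : Ultrafilter ℕ) (a : A) :
    Ideal.Quotient.mk (nullIdeal A ω) (BoundedContinuousFunction.const ℕ (star a))
      = star (Ideal.Quotient.mk (nullIdeal A ω) (BoundedContinuousFunction.const ℕ a)) :=
  rfl

/-- The canonical embedding `A → A_ω` by constant sequences, a unital star homomorphism. -/
def constEmb (ω : Ultrafilter ℕ) : A →⋆ₐ[ℂ] Ultrapower A ω where
  toFun a := Ideal.Quotient.mk (nullIdeal A ω) (BoundedContinuousFunction.const ℕ a)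
  map_one' := rfl
  map_mul' _ _ := rfl
  map_zero' := rfl
  map_add' _ _ := rfl
  commutes' _ := rfl
  map_star' := constEmb_map_star A ω

/-- The central sequence algebra `F_ω(A) = A_ω ∩ A'`: the commutant in `A_ω` of (the image of)
`A`, as a unital star subalgebra of `A_ω`. -/
def centralSeqAlg (ω : Ultrafilter ℕ) : StarSubalgebra ℂ (Ultrapower A ω) :=
  StarSubalgebra.centralizer ℂ (Set.range (constEmb A ω))

end Vale.Agent.Lib.P101

end
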