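import Vale.Agent.Lib.P101.Limits

/-!
# A finite-dimensional irreducible representation of `A` gives a character of `F_ω(A)`
-/

open scoped BoundedContinuousFunction Matrix.Norms.L2Operator
open Filter Topology

noncomputable section

namespace Vale.Agent.Lib.P101

universe u

variable {A : Type u} [CStarAlgebra A]

/-- The `(i, j)` matrix entry of a star homomorphism into `M_n(ℂ)`, as a continuous linear
functional. -/
def entryCLM {n : ℕ} (π : A →⋆ₐ[ℂ] Matrix (Fin n) (Fin n) ℂ) (i j : Fin n) : A →L[ℂ] ℂ :=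
  (LinearMap.toContinuousLinearMap (Matrix.entryLinearMap ℂ ℂ i j)).comp
    ⟨π.toAlgHom.toLinearMap, AddMonoidHomClass.continuous_of_bound π 1
      (fun a => by simpa using NonUnitalStarAlgHom.norm_apply_le π a)⟩

@[simp] theorem entryCLM_apply {n : ℕ} (π : A →⋆ₐ[ℂ] Matrix (Fin n) (Fin n) ℂ) (i j : Fin n)
    (a : A) : entryCLM π i j a = π a i j := rfl

theorem tendsto_entry_zero {n : ℕ} (π : A →⋆ₐ[ℂ] Matrix (Fin n) (Fin n) ℂ)
    (hπ : Function.Surjective π) (ω : Ultrafilter ℕ) {i j : Fin n} (hij : i ≠ j)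
    (x : ℕ →ᵇ A)
    (hx : Ideal.Quotient.mk (nullIdeal A ω) x ∈ centralSeqAlg A ω) :
    Tendsto (fun k => π (x k) i j) ω (𝓝 0) := by
  obtain ⟨u, hu⟩ := hπ (Matrix.single j j 1)
  have h1 := (mk_mem_centralSeqAlg_iff ω x).mp hx u
  have h2 : Tendsto (fun k => ‖entryCLM π i j‖ * ‖u * x k - x k * u‖) ω (𝓝 0) := by
    have := h1.const_mul ‖entryCLM π i j‖
    rwa [mul_zero] at this
  have h3 : Tendsto (fun k => entryCLM π i j (u * x k - x k * u)) ω (𝓝 0) :=
    squeeze_zero_norm (fun k => (entryCLM π i j).le_opNorm _) h2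
  have h4 : ∀ k, entryCLM π i j (u * x k - x k * u) = - π (x k) i j := by
    intro k
    simp only [entryCLM_apply, map_sub, map_mul, hu]
    rw [Matrix.single_mul_apply_of_ne _ _ _ _ _ hij, Matrix.mul_single_apply_same]
    simp
  have h5 := h3.neg
  simp only [h4, neg_neg, neg_zero] at h5
  exact h5

theorem ulim_mul_of_central {n : ℕ} (π : A →⋆ₐ[ℂ] Matrix (Fin n) (Fin n) ℂ)
    (hπ : Function.Surjective π) (ω : Ultrafilter ℕ) (i : Fin n)
    (x y : ℕ →ᵇ A)
    (hx : Ideal.Quotient.mk (nullIdeal A ω) x ∈ centralSeqAlg A ω) :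
    ulim A ω (entryCLM π i i) (x * y)
      = ulim A ω (entryCLM π i i) x * ulim A ω (entryCLM π i i) y := by
  apply ulim_eq
  have hsum : ∀ k, entryCLM π i i ((x * y) k) = ∑ j, π (x k) i j * π (y k) j i := by
    intro k
    show π (x k * y k) i i = _
    rw [map_mul, Matrix.mul_apply]
  have hterm : ∀ j ∈ (Finset.univ : Finset (Fin n)),
      Tendsto (fun k => π (x k) i j * π (y k) j i) ω
        (𝓝 (if j = i then ulim A ω (entryCLM π i i) x * ulim A ω (entryCLM π i i) y else 0)) := by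
    intro j _
    by_cases hj : j = i
    · subst hj
      simp only [if_true]
      exact (tendsto_ulim ω (entryCLM π j j) x).mul (tendsto_ulim ω (entryCLM π j j) y)
    · simp only [hj, if_false]
      have h0 := tendsto_entry_zero π hπ ω (Ne.symm hj) x hx
      have h1 := h0.mul (tendsto_ulim ω (entryCLM π j i) y)
      rw [zero_mul] at h1
      exact h1
  have h := tendsto_finsetSum (Finset.univ : Finset (Fin n)) hterm
  simp only [Finset.sum_ite_eq', Finset.mem_univ, if_true] at h
  refine h.congr fun k => (hsum k).symm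

theorem ulim_entry_star {n : ℕ} (π : A →⋆ₐ[ℂ] Matrix (Fin n) (Fin n) ℂ) (ω : Ultrafilter ℕ)
    (i : Fin n) (x : ℕ →ᵇ A) :
    ulim A ω (entryCLM π i i) (star x) = star (ulim A ω (entryCLM π i i) x) := by
  apply ulim_eq
  have h := (tendsto_ulim ω (entryCLM π i i) x).star
  refine h.congr fun k => ?_
  show star (π (x k) i i) = π (star (x k)) i i
  rw [map_star, Matrix.star_apply]

/-- The character of `F_ω(A)` induced by a surjective star homomorphism `A → M_n(ℂ)`:
the `ω`-limit of the `(i, i)` matrix entries. -/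
def finDimCharacter {n : ℕ} (π : A →⋆ₐ[ℂ] Matrix (Fin n) (Fin n) ℂ)
    (hπ : Function.Surjective π) (ω : Ultrafilter ℕ) (i : Fin n) :
    centralSeqAlg A ω →⋆ₐ[ℂ] ℂ where
  toFun q := ulimQ ω (entryCLM π i i) q.1
  map_one' := by
    show ulim A ω (entryCLM π i i) 1 = 1
    apply ulim_eq
    have : ∀ k, entryCLM π i i ((1 : ℕ →ᵇ A) k) = 1 := by
      intro k
      show π (1 : A) i i = 1
      rw [map_one, Matrix.one_apply_eq]
    simp only [this]
    exact tendsto_const_nhds
  map_mul' := by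
    rintro ⟨p, hp⟩ ⟨q, hq⟩
    obtain ⟨x, rfl⟩ := Ideal.Quotient.mk_surjective p
    obtain ⟨y, rfl⟩ := Ideal.Quotient.mk_surjective q
    exact ulim_mul_of_central π hπ ω i x y hp
  map_zero' := by
    show ulim A ω (entryCLM π i i) 0 = 0
    exact ulim_eq_zero_of_mem ω _ (Ideal.zero_mem _)
  map_add' := by
    rintro ⟨p, hp⟩ ⟨q, hq⟩
    obtain ⟨x, rfl⟩ := Ideal.Quotient.mk_surjective p
    obtain ⟨y, rfl⟩ := Ideal.Quotient.mk_surjective q
    exact ulim_add ω _ x y
  commutes' := by
    intro c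
    show ulim A ω (entryCLM π i i) (algebraMap ℂ (ℕ →ᵇ A) c) = c
    apply ulim_eq
    have : ∀ k, entryCLM π i i ((algebraMap ℂ (ℕ →ᵇ A) c) k) = c := by
      intro k
      show π (algebraMap ℂ A c) i i = c
      rw [AlgHomClass.commutes, Matrix.algebraMap_matrix_apply]
      simp
    simp only [this]
    exact tendsto_const_nhds
  map_star' := by
    rintro ⟨p, hp⟩
    obtain ⟨x, rfl⟩ := Ideal.Quotient.mk_surjective p
    exact ulim_entry_star π ω i x

end Vale.Agent.Lib.P101

end
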