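import Vale.Agent.Lib.P101.SpectralGap

/-!
# Absence of characters on `F_ω(A)` forces approximately central elements of large variance

If `F_ω(A)` has no character, then for every state `φ` of `A` there is `δ > 0` such that every
finite subset of `A` is approximately commuted with by contractions whose `φ`-variance is at
least `δ`.
-/

open scoped BoundedContinuousFunction ComplexOrder InnerProductSpace
open Filter Topology

noncomputable section

namespace Vale.Agent.Lib.P101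

universe u

variable {A : Type u} [CStarAlgebra A] [PartialOrder A] [StarOrderedRing A]

theorem variance_nonneg (φ : A →ₚ[ℂ] ℂ) (h1 : φ 1 = 1) (x : A) :
    0 ≤ (φ (x * star x)).re - ‖φ x‖ ^ 2 := by
  rw [← variance_eq φ h1 x]
  have h : (0 : ℂ) ≤ φ ((x - φ x • (1 : A)) * star (x - φ x • (1 : A))) :=
    φ.map_nonneg (mul_star_self_nonneg _)
  exact (Complex.nonneg_iff.mp h).1

theorem tendsto_mul_of_var (ω : Ultrafilter ℕ) (φ : A →ₚ[ℂ] ℂ) (h1 : φ 1 = 1)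
    (x y : ℕ →ᵇ A)
    (hv : Tendsto (fun k => (φ (x k * star (x k))).re - ‖φ (x k)‖ ^ 2) ω (𝓝 0)) :
    Tendsto (fun k => φ (x k * y k) - φ (x k) * φ (y k)) ω (𝓝 0) := by
  have hM : ∀ k, (φ (star (y k) * y k)).re ≤ ‖posCLM φ‖ * (‖y‖ * ‖y‖) := by
    intro k
    calc (φ (star (y k) * y k)).re ≤ ‖φ (star (y k) * y k)‖ := Complex.re_le_norm _
      _ = ‖posCLM φ (star (y k) * y k)‖ := rfl
      _ ≤ ‖posCLM φ‖ * ‖star (y k) * y k‖ := (posCLM φ).le_opNorm _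
      _ ≤ ‖posCLM φ‖ * (‖y‖ * ‖y‖) := by
        refine mul_le_mul_of_nonneg_left ?_ (norm_nonneg _)
        calc ‖star (y k) * y k‖ ≤ ‖star (y k)‖ * ‖y k‖ := norm_mul_le _ _
          _ = ‖y k‖ * ‖y k‖ := by rw [norm_star]
          _ ≤ ‖y‖ * ‖y‖ :=
            mul_le_mul (y.norm_coe_le_norm k) (y.norm_coe_le_norm k) (norm_nonneg _)
              (norm_nonneg _)
  have hbound : ∀ k, ‖φ (x k * y k) - φ (x k) * φ (y k)‖
      ≤ Real.sqrt ((φ (x k * star (x k))).re - ‖φ (x k)‖ ^ 2)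
        * Real.sqrt (‖posCLM φ‖ * (‖y‖ * ‖y‖)) := by
    intro k
    have e1 : φ (x k * y k) - φ (x k) * φ (y k)
        = φ (star (star (x k - φ (x k) • (1 : A))) * y k) := by
      rw [star_star, sub_mul, smul_mul_assoc, one_mul, map_sub, map_smul, smul_eq_mul]
    rw [e1]
    refine (pos_cauchy_schwarz φ _ _).trans ?_
    refine mul_le_mul ?_ (Real.sqrt_le_sqrt (hM k)) (Real.sqrt_nonneg _) (Real.sqrt_nonneg _)
    refine Real.sqrt_le_sqrt ?_
    rw [star_star, variance_eq φ h1]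
  refine squeeze_zero_norm hbound ?_
  have h2 := ((Real.continuous_sqrt.tendsto 0).comp hv).mul_const
    (Real.sqrt (‖posCLM φ‖ * (‖y‖ * ‖y‖)))
  simpa using h2

theorem tendsto_var_of_gamma (ω : Ultrafilter ℕ) (φ : A →ₚ[ℂ] ℂ) (h1 : φ 1 = 1)
    (hΓ : ∀ δ : ℝ, 0 < δ → ∃ (S : Finset A) (ε : ℝ), 0 < ε ∧ ∀ x : A, ‖x‖ ≤ 1 →
      (∀ a ∈ S, ‖x * a - a * x‖ < ε) → (φ (star x * x)).re - ‖φ x‖ ^ 2 < δ)
    (x : ℕ →ᵇ A) (hx : Ideal.Quotient.mk (nullIdeal A ω) x ∈ centralSeqAlg A ω) :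
    Tendsto (fun k => (φ (x k * star (x k))).re - ‖φ (x k)‖ ^ 2) ω (𝓝 0) := by
  have hcent := (mk_mem_centralSeqAlg_iff ω x).mp hx
  rw [Metric.tendsto_nhds]
  intro δ' hδ'
  set R : ℝ := ‖x‖ + 1 with hR
  have hRpos : 0 < R := by positivity
  obtain ⟨S, ε, hε, hS⟩ := hΓ (δ' / R ^ 2) (by positivity)
  have hev : ∀ᶠ k in (ω : Filter ℕ), ∀ a ∈ S, ‖star a * x k - x k * star a‖ < ε * R := by
    rw [Filter.eventually_all_finset]
    intro a _
    exact (hcent (star a)).eventually (gt_mem_nhds (by positivity))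
  refine hev.mono fun k hk => ?_
  have hnn := variance_nonneg φ h1 (x k)
  rw [Real.dist_eq, sub_zero, abs_of_nonneg hnn]
  have hnorm : ‖R⁻¹ • star (x k)‖ ≤ 1 := by
    rw [norm_smul, norm_inv, Real.norm_of_nonneg hRpos.le, norm_star]
    rw [inv_mul_le_iff₀ hRpos, mul_one]
    have := x.norm_coe_le_norm k
    linarith
  have hcomm : ∀ a ∈ S, ‖(R⁻¹ • star (x k)) * a - a * (R⁻¹ • star (x k))‖ < ε := by
    intro a ha
    have e : (R⁻¹ • star (x k)) * a - a * (R⁻¹ • star (x k))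
        = R⁻¹ • star (star a * x k - x k * star a) := by
      rw [star_sub, star_mul, star_mul, star_star, smul_mul_assoc, mul_smul_comm, smul_sub]
    rw [e, norm_smul, norm_inv, Real.norm_of_nonneg hRpos.le, norm_star,
      inv_mul_lt_iff₀ hRpos, mul_comm]
    exact hk a ha
  have h := hS _ hnorm hcomm
  have e1 : star (R⁻¹ • star (x k)) * (R⁻¹ • star (x k)) = (R⁻¹ * R⁻¹) • (x k * star (x k)) := by
    rw [star_smul, star_star, smul_mul_assoc, mul_smul_comm, smul_smul]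
    simp
  have e2 : ‖φ (R⁻¹ • star (x k))‖ = R⁻¹ * ‖φ (x k)‖ := by
    rw [PositiveLinearMap.map_smul_of_tower, norm_smul, norm_inv, Real.norm_of_nonneg hRpos.le,
      map_star φ (x k), norm_star]
  rw [e1, e2, PositiveLinearMap.map_smul_of_tower] at h
  have e3 : ((R⁻¹ * R⁻¹) • φ (x k * star (x k))).re = R⁻¹ * R⁻¹ * (φ (x k * star (x k))).re := by
    rw [Complex.real_smul, Complex.re_ofReal_mul]
  rw [e3] at h
  have h' : R⁻¹ * R⁻¹ * ((φ (x k * star (x k))).re - ‖φ (x k)‖ ^ 2) < δ' / R ^ 2 := by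
    calc R⁻¹ * R⁻¹ * ((φ (x k * star (x k))).re - ‖φ (x k)‖ ^ 2)
        = R⁻¹ * R⁻¹ * (φ (x k * star (x k))).re - (R⁻¹ * ‖φ (x k)‖) ^ 2 := by ring
      _ < δ' / R ^ 2 := h
  have h'' : ((φ (x k * star (x k))).re - ‖φ (x k)‖ ^ 2) / R ^ 2 < δ' / R ^ 2 := by
    have : ((φ (x k * star (x k))).re - ‖φ (x k)‖ ^ 2) / R ^ 2
        = R⁻¹ * R⁻¹ * ((φ (x k * star (x k))).re - ‖φ (x k)‖ ^ 2) := by
      field_simp
    rw [this]
    exact h'
  exact (div_lt_div_iff_of_pos_right (by positivity)).mp h''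

/-- A state whose variance is uniformly small on approximately central contractions induces a
character of `F_ω(A)`. -/
def gammaCharacter (ω : Ultrafilter ℕ) (φ : A →ₚ[ℂ] ℂ) (h1 : φ 1 = 1)
    (hΓ : ∀ δ : ℝ, 0 < δ → ∃ (S : Finset A) (ε : ℝ), 0 < ε ∧ ∀ x : A, ‖x‖ ≤ 1 →
      (∀ a ∈ S, ‖x * a - a * x‖ < ε) → (φ (star x * x)).re - ‖φ x‖ ^ 2 < δ) :
    centralSeqAlg A ω →⋆ₐ[ℂ] ℂ :=
  charOfAsympMult ω (posCLM φ) h1 (fun a => map_star φ a)
    (fun x y hx _ => tendsto_mul_of_var ω φ h1 x y (tendsto_var_of_gamma ω φ h1 hΓ x hx))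

/-- If `F_ω(A)` has no character, then for every state `φ` of `A` there is `δ > 0` such that
every finite subset of `A` is `ε`-commuted with by a contraction of `φ`-variance at least
`δ`. -/
theorem exists_central_variance (ω : Ultrafilter ℕ)
    (hF : IsEmpty (centralSeqAlg A ω →⋆ₐ[ℂ] ℂ)) (φ : A →ₚ[ℂ] ℂ) (h1 : φ 1 = 1) :
    ∃ δ : ℝ, 0 < δ ∧ ∀ (S : Finset A) (ε : ℝ), 0 < ε →
      ∃ x : A, ‖x‖ ≤ 1 ∧ (∀ a ∈ S, ‖x * a - a * x‖ < ε) ∧
        δ ≤ (φ (star x * x)).re - ‖φ x‖ ^ 2 := by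
  by_contra hcon
  refine hF.false (gammaCharacter ω φ h1 ?_)
  intro δ hδ
  by_contra hno
  refine hcon ⟨δ, hδ, fun S ε hε => ?_⟩
  by_contra hx
  refine hno ⟨S, ε, hε, fun x hx1 hx2 => ?_⟩
  by_contra hlt
  exact hx ⟨x, hx1, hx2, not_lt.mp hlt⟩

end Vale.Agent.Lib.P101

end
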