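import Vale.Agent.Lib.P101.Defs

/-!
# Ultralimits of bounded scalar sequences and linear functionals on the ultrapower
-/

open scoped BoundedContinuousFunction
open Filter Topology

noncomputable section

namespace Vale.Agent.Lib.P101

universe u

/-- A bounded complex sequence converges along any ultrafilter. -/
theorem exists_tendsto_of_bounded (ω : Ultrafilter ℕ) (f : ℕ → ℂ) (R : ℝ)
    (hf : ∀ k, ‖f k‖ ≤ R) : ∃ l, Tendsto f ω (𝓝 l) := by
  have hc : IsCompact (Metric.closedBall (0 : ℂ) R) := isCompact_closedBall 0 R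
  have hle : ((ω.map f : Ultrafilter ℂ) : Filter ℂ) ≤ 𝓟 (Metric.closedBall (0 : ℂ) R) := by
    rw [le_principal_iff]
    refine Filter.mem_map.mpr (Filter.univ_mem' fun k => ?_)
    simpa [Metric.mem_closedBall, dist_zero_right] using hf k
  obtain ⟨l, -, hl⟩ := hc.ultrafilter_le_nhds (ω.map f) hle
  exact ⟨l, hl⟩

variable (A : Type u) [CStarAlgebra A]

/-- The `ω`-limit of a continuous linear functional applied entrywise to a bounded sequence. -/
def ulim (ω : Ultrafilter ℕ) (ψ : A →L[ℂ] ℂ) (x : ℕ →ᵇ A) : ℂ :=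
  limUnder (ω : Filter ℕ) (fun k => ψ (x k))

variable {A}

theorem tendsto_ulim (ω : Ultrafilter ℕ) (ψ : A →L[ℂ] ℂ) (x : ℕ →ᵇ A) :
    Tendsto (fun k => ψ (x k)) ω (𝓝 (ulim A ω ψ x)) := by
  have hb : ∀ k, ‖ψ (x k)‖ ≤ ‖ψ‖ * ‖x‖ := fun k =>
    (ψ.le_opNorm (x k)).trans
      (mul_le_mul_of_nonneg_left (x.norm_coe_le_norm k) (norm_nonneg _))
  obtain ⟨l, hl⟩ := exists_tendsto_of_bounded ω (fun k => ψ (x k)) _ hb
  exact tendsto_nhds_limUnder ⟨l, hl⟩

theorem ulim_eq (ω : Ultrafilter ℕ) (ψ : A →L[ℂ] ℂ) (x : ℕ →ᵇ A) {l : ℂ}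
    (h : Tendsto (fun k => ψ (x k)) ω (𝓝 l)) : ulim A ω ψ x = l :=
  tendsto_nhds_unique (tendsto_ulim ω ψ x) h

theorem ulim_eq_zero_of_mem (ω : Ultrafilter ℕ) (ψ : A →L[ℂ] ℂ) {x : ℕ →ᵇ A}
    (hx : x ∈ nullIdeal A ω) : ulim A ω ψ x = 0 := by
  apply ulim_eq
  rw [mem_nullIdeal] at hx
  have h := hx.const_mul ‖ψ‖
  rw [mul_zero] at h
  exact squeeze_zero_norm (fun k => ψ.le_opNorm (x k)) h

theorem ulim_add (ω : Ultrafilter ℕ) (ψ : A →L[ℂ] ℂ) (x y : ℕ →ᵇ A) :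
    ulim A ω ψ (x + y) = ulim A ω ψ x + ulim A ω ψ y := by
  apply ulim_eq
  have h := (tendsto_ulim ω ψ x).add (tendsto_ulim ω ψ y)
  refine h.congr fun k => ?_
  show ψ (x k) + ψ (y k) = ψ (x k + y k)
  rw [map_add]

theorem ulim_sub (ω : Ultrafilter ℕ) (ψ : A →L[ℂ] ℂ) (x y : ℕ →ᵇ A) :
    ulim A ω ψ (x - y) = ulim A ω ψ x - ulim A ω ψ y := by
  apply ulim_eq
  have h := (tendsto_ulim ω ψ x).sub (tendsto_ulim ω ψ y)
  refine h.congr fun k => ?_
  show ψ (x k) - ψ (y k) = ψ (x k - y k)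
  rw [map_sub]

theorem ulim_congr (ω : Ultrafilter ℕ) (ψ : A →L[ℂ] ℂ) {x y : ℕ →ᵇ A}
    (h : x - y ∈ nullIdeal A ω) : ulim A ω ψ x = ulim A ω ψ y := by
  have h1 := ulim_eq_zero_of_mem ω ψ h
  rw [ulim_sub] at h1
  exact sub_eq_zero.mp h1

/-- The functional on the ultrapower `A_ω` induced by a continuous linear functional on `A`. -/
def ulimQ (ω : Ultrafilter ℕ) (ψ : A →L[ℂ] ℂ) (q : Ultrapower A ω) : ℂ :=
  Quotient.liftOn' q (ulim A ω ψ) (fun x y h => by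
    rw [Submodule.quotientRel_def] at h
    exact ulim_congr ω ψ h)

theorem ulimQ_mk (ω : Ultrafilter ℕ) (ψ : A →L[ℂ] ℂ) (x : ℕ →ᵇ A) :
    ulimQ ω ψ (Ideal.Quotient.mk (nullIdeal A ω) x) = ulim A ω ψ x := rfl

/-- Membership of the class of a bounded sequence in `F_ω(A)`, unfolded: the sequence
asymptotically commutes with every element of `A`. -/
theorem mk_mem_centralSeqAlg_iff (ω : Ultrafilter ℕ) (x : ℕ →ᵇ A) :
    Ideal.Quotient.mk (nullIdeal A ω) x ∈ centralSeqAlg A ω ↔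
      ∀ a : A, Tendsto (fun k => ‖a * x k - x k * a‖) ω (𝓝 0) := by
  have key : ∀ a : A, (constEmb A ω a * Ideal.Quotient.mk (nullIdeal A ω) x
      = Ideal.Quotient.mk (nullIdeal A ω) x * constEmb A ω a) ↔
      Tendsto (fun k => ‖a * x k - x k * a‖) ω (𝓝 0) := by
    intro a
    have h1 : constEmb A ω a * Ideal.Quotient.mk (nullIdeal A ω) x
        = Ideal.Quotient.mk (nullIdeal A ω) (BoundedContinuousFunction.const ℕ a * x) := rfl
    have h2 : Ideal.Quotient.mk (nullIdeal A ω) x * constEmb A ω a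
        = Ideal.Quotient.mk (nullIdeal A ω) (x * BoundedContinuousFunction.const ℕ a) := rfl
    rw [h1, h2, Ideal.Quotient.eq, mem_nullIdeal]
    exact Iff.rfl
  constructor
  · intro h a
    have h' := (StarSubalgebra.mem_centralizer_iff ℂ).mp h (constEmb A ω a) ⟨a, rfl⟩
    exact (key a).mp h'.1
  · intro h
    refine (StarSubalgebra.mem_centralizer_iff ℂ).mpr ?_
    rintro _ ⟨a, rfl⟩
    refine ⟨(key a).mpr (h a), ?_⟩
    rw [← map_star]
    exact (key (star a)).mpr (h (star a))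

end Vale.Agent.Lib.P101

end
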