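import Vale.Agent.Lib.P101.AsympMult

/-!
# A representation containing a rank-one projection gives a character of `F_ω(A)`
-/

open scoped BoundedContinuousFunction InnerProductSpace
open Filter Topology

noncomputable section

namespace Vale.Agent.Lib.P101

universe u v

variable {A : Type u} [CStarAlgebra A]
variable {H : Type v} [NormedAddCommGroup H] [InnerProductSpace ℂ H] [CompleteSpace H]

theorem norm_rep_le (π : A →⋆ₐ[ℂ] (H →L[ℂ] H)) (x : A) : ‖π x‖ ≤ ‖x‖ :=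
  NonUnitalStarAlgHom.norm_apply_le π x

/-- The vector functional `x ↦ ⟨ξ, π(x) ξ⟩` of a representation, as a continuous linear
functional. -/
def vecCLM (π : A →⋆ₐ[ℂ] (H →L[ℂ] H)) (ξ : H) : A →L[ℂ] ℂ :=
  LinearMap.mkContinuous
    { toFun := fun x => ⟪ξ, π x ξ⟫_ℂ
      map_add' := fun x y => by rw [map_add, add_apply, inner_add_right]
      map_smul' := fun c x => by
        rw [map_smul, smul_apply, inner_smul_right]
        rfl }
    (‖ξ‖ * ‖ξ‖) (fun x => by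
      show ‖⟪ξ, π x ξ⟫_ℂ‖ ≤ ‖ξ‖ * ‖ξ‖ * ‖x‖
      calc ‖⟪ξ, π x ξ⟫_ℂ‖ ≤ ‖ξ‖ * ‖π x ξ‖ := norm_inner_le_norm _ _
        _ ≤ ‖ξ‖ * (‖π x‖ * ‖ξ‖) :=
          mul_le_mul_of_nonneg_left ((π x).le_opNorm ξ) (norm_nonneg _)
        _ ≤ ‖ξ‖ * (‖x‖ * ‖ξ‖) :=
          mul_le_mul_of_nonneg_left
            (mul_le_mul_of_nonneg_right (norm_rep_le π x) (norm_nonneg _)) (norm_nonneg _)
        _ = ‖ξ‖ * ‖ξ‖ * ‖x‖ := by ring)

@[simp] theorem vecCLM_apply (π : A →⋆ₐ[ℂ] (H →L[ℂ] H)) (ξ : H) (x : A) :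
    vecCLM π ξ x = ⟪ξ, π x ξ⟫_ℂ := rfl

theorem vecCLM_one (π : A →⋆ₐ[ℂ] (H →L[ℂ] H)) (ξ : H) (hξ : ‖ξ‖ = 1) :
    vecCLM π ξ 1 = 1 := by
  rw [vecCLM_apply, map_one, one_apply_eq_self, inner_self_eq_norm_sq_to_K, hξ]
  simp

theorem vecCLM_star (π : A →⋆ₐ[ℂ] (H →L[ℂ] H)) (ξ : H) (x : A) :
    vecCLM π ξ (star x) = star (vecCLM π ξ x) := by
  rw [vecCLM_apply, vecCLM_apply, map_star, ContinuousLinearMap.star_eq_adjoint,
    ContinuousLinearMap.adjoint_inner_right, Complex.star_def, inner_conj_symm]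

theorem tendsto_rankOne_mul (ω : Ultrafilter ℕ) (π : A →⋆ₐ[ℂ] (H →L[ℂ] H)) (a : A) (ξ : H)
    (hξ : ‖ξ‖ = 1) (ha : ∀ η : H, π a η = ⟪ξ, η⟫_ℂ • ξ)
    (x y : ℕ →ᵇ A) (hy : Ideal.Quotient.mk (nullIdeal A ω) y ∈ centralSeqAlg A ω) :
    Tendsto (fun k => vecCLM π ξ (x k * y k) - vecCLM π ξ (x k) * vecCLM π ξ (y k)) ω
      (𝓝 0) := by
  have haξ : π a ξ = ξ := by
    rw [ha, inner_self_eq_norm_sq_to_K, hξ]
    simp
  have hcent := (mk_mem_centralSeqAlg_iff ω y).mp hy a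
  have hkey : ∀ k, vecCLM π ξ (x k * y k) - vecCLM π ξ (x k) * vecCLM π ξ (y k)
      = - ⟪ξ, π (x k) (π (a * y k - y k * a) ξ)⟫_ℂ := by
    intro k
    have e1 : π (a * y k - y k * a) ξ = ⟪ξ, π (y k) ξ⟫_ℂ • ξ - π (y k) ξ := by
      rw [map_sub, map_mul, map_mul, sub_apply,
        mul_apply_eq_comp, mul_apply_eq_comp, ha, haξ]
    rw [e1, map_sub, map_smul, inner_sub_right, inner_smul_right]
    simp only [vecCLM_apply, map_mul, mul_apply_eq_comp]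
    ring
  have hbound : ∀ k, ‖vecCLM π ξ (x k * y k) - vecCLM π ξ (x k) * vecCLM π ξ (y k)‖
      ≤ ‖x‖ * ‖a * y k - y k * a‖ := by
    intro k
    rw [hkey, norm_neg]
    calc ‖⟪ξ, π (x k) (π (a * y k - y k * a) ξ)⟫_ℂ‖
        ≤ ‖ξ‖ * ‖π (x k) (π (a * y k - y k * a) ξ)‖ := norm_inner_le_norm _ _
      _ = ‖π (x k) (π (a * y k - y k * a) ξ)‖ := by rw [hξ, one_mul]
      _ ≤ ‖π (x k)‖ * ‖π (a * y k - y k * a) ξ‖ := (π (x k)).le_opNorm _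
      _ ≤ ‖π (x k)‖ * (‖π (a * y k - y k * a)‖ * ‖ξ‖) :=
        mul_le_mul_of_nonneg_left ((π (a * y k - y k * a)).le_opNorm ξ) (norm_nonneg _)
      _ = ‖π (x k)‖ * ‖π (a * y k - y k * a)‖ := by rw [hξ, mul_one]
      _ ≤ ‖x‖ * ‖a * y k - y k * a‖ :=
        mul_le_mul ((norm_rep_le π (x k)).trans (x.norm_coe_le_norm k)) (norm_rep_le π _)
          (norm_nonneg _) (norm_nonneg _)
  refine squeeze_zero_norm hbound ?_
  have h := hcent.const_mul ‖x‖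
  rwa [mul_zero] at h

/-- If some element of `A` acts as the rank-one projection onto a unit vector in some
representation of `A`, the corresponding vector state induces a character of `F_ω(A)`. -/
def rankOneCharacter (ω : Ultrafilter ℕ) (π : A →⋆ₐ[ℂ] (H →L[ℂ] H)) (a : A) (ξ : H)
    (hξ : ‖ξ‖ = 1) (ha : ∀ η : H, π a η = ⟪ξ, η⟫_ℂ • ξ) :
    centralSeqAlg A ω →⋆ₐ[ℂ] ℂ :=
  charOfAsympMult ω (vecCLM π ξ) (vecCLM_one π ξ hξ) (vecCLM_star π ξ)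
    (fun x y _ hy => tendsto_rankOne_mul ω π a ξ hξ ha x y hy)

end Vale.Agent.Lib.P101

end
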