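import Vale.Agent.Lib.P101.AsympMult

/-!
# A state with a spectral gap in finitely many commutators gives a character of `F_ω(A)`
-/

open scoped BoundedContinuousFunction ComplexOrder InnerProductSpace
open Filter Topology

noncomputable section

namespace Vale.Agent.Lib.P101

universe u

variable {A : Type u} [CStarAlgebra A] [PartialOrder A] [StarOrderedRing A]

/-- A positive linear functional on a C*-algebra, as a continuous linear functional. -/
def posCLM (φ : A →ₚ[ℂ] ℂ) : A →L[ℂ] ℂ := ⟨φ.toLinearMap, map_continuous φ⟩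

@[simp] theorem posCLM_apply (φ : A →ₚ[ℂ] ℂ) (a : A) : posCLM φ a = φ a := rfl

/-- The Cauchy-Schwarz inequality for a positive linear functional. -/
theorem pos_cauchy_schwarz (φ : A →ₚ[ℂ] ℂ) (a b : A) :
    ‖φ (star a * b)‖ ≤ Real.sqrt (φ (star a * a)).re * Real.sqrt (φ (star b * b)).re := by
  have h := norm_inner_le_norm (𝕜 := ℂ) (φ.toPreGNS a) (φ.toPreGNS b)
  rw [PositiveLinearMap.preGNS_inner_def, PositiveLinearMap.preGNS_norm_def,
    PositiveLinearMap.preGNS_norm_def] at h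
  simpa using h

theorem variance_eq (φ : A →ₚ[ℂ] ℂ) (h1 : φ 1 = 1) (x : A) :
    (φ ((x - φ x • (1 : A)) * star (x - φ x • (1 : A)))).re
      = (φ (x * star x)).re - ‖φ x‖ ^ 2 := by
  have hs : φ (star x) = star (φ x) := map_star φ x
  have e : (x - φ x • (1 : A)) * star (x - φ x • (1 : A))
      = x * star x - star (φ x) • x - φ x • star x + (φ x * star (φ x)) • (1 : A) := by
    simp only [star_sub, star_smul, star_one, sub_mul, mul_sub, smul_mul_assoc, mul_smul_comm,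
      one_mul, mul_one, smul_sub, smul_smul]
    rw [mul_comm (star (φ x)) (φ x)]
    abel
  rw [e]
  simp only [map_sub, map_add, map_smul, smul_eq_mul, hs, h1, mul_one]
  have hn : φ x * star (φ x) = ((‖φ x‖ ^ 2 : ℝ) : ℂ) := by
    rw [Complex.star_def, Complex.mul_conj, Complex.normSq_eq_norm_sq]
  have hn' : star (φ x) * φ x = ((‖φ x‖ ^ 2 : ℝ) : ℂ) := by rw [mul_comm, hn]
  rw [hn, hn']
  have hre : ((‖φ x‖ ^ 2 : ℝ) : ℂ).re = ‖φ x‖ ^ 2 := Complex.ofReal_re _
  simp only [Complex.sub_re, Complex.add_re, hre]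
  ring

theorem tendsto_gap_mul (ω : Ultrafilter ℕ) (φ : A →ₚ[ℂ] ℂ) (h1 : φ 1 = 1) (S : Finset A)
    (C : ℝ)
    (gap : ∀ x : A, (φ (star x * x)).re - ‖φ x‖ ^ 2 ≤ C * ∑ a ∈ S, ‖x * a - a * x‖ ^ 2)
    (x y : ℕ →ᵇ A) (hx : Ideal.Quotient.mk (nullIdeal A ω) x ∈ centralSeqAlg A ω) :
    Tendsto (fun k => φ (x k * y k) - φ (x k) * φ (y k)) ω (𝓝 0) := by
  have hM : ∀ k, (φ (star (y k) * y k)).re ≤ ‖posCLM φ‖ * (‖y‖ * ‖y‖) := by
    intro k
    calc (φ (star (y k) * y k)).re ≤ ‖φ (star (y k) * y k)‖ := Complex.re_le_norm _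
      _ = ‖posCLM φ (star (y k) * y k)‖ := rfl
      _ ≤ ‖posCLM φ‖ * ‖star (y k) * y k‖ := (posCLM φ).le_opNorm _
      _ ≤ ‖posCLM φ‖ * (‖y‖ * ‖y‖) := by
        refine mul_le_mul_of_nonneg_left ?_ (norm_nonneg _)
        calc ‖star (y k) * y k‖ ≤ ‖star (y k)‖ * ‖y k‖ := norm_mul_le _ _
          _ = ‖y k‖ * ‖y k‖ := by rw [norm_star]
          _ ≤ ‖y‖ * ‖y‖ :=
            mul_le_mul (y.norm_coe_le_norm k) (y.norm_coe_le_norm k) (norm_nonneg _)
              (norm_nonneg _)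
  have hcent := (mk_mem_centralSeqAlg_iff ω x).mp hx
  have hG : Tendsto (fun k => C * ∑ a ∈ S, ‖star a * x k - x k * star a‖ ^ 2) ω (𝓝 0) := by
    have hterm : ∀ a ∈ S, Tendsto (fun k => ‖star a * x k - x k * star a‖ ^ 2) ω (𝓝 0) := by
      intro a _
      have := (hcent (star a)).pow 2
      simpa using this
    have hsum := tendsto_finsetSum S hterm
    have := hsum.const_mul C
    simpa using this
  have hbound : ∀ k, ‖φ (x k * y k) - φ (x k) * φ (y k)‖
      ≤ Real.sqrt (C * ∑ a ∈ S, ‖star a * x k - x k * star a‖ ^ 2)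
        * Real.sqrt (‖posCLM φ‖ * (‖y‖ * ‖y‖)) := by
    intro k
    have e1 : φ (x k * y k) - φ (x k) * φ (y k)
        = φ (star (star (x k - φ (x k) • (1 : A))) * y k) := by
      rw [star_star, sub_mul, smul_mul_assoc, one_mul, map_sub, map_smul, smul_eq_mul]
    rw [e1]
    refine (pos_cauchy_schwarz φ _ _).trans ?_
    refine mul_le_mul ?_ (Real.sqrt_le_sqrt (hM k)) (Real.sqrt_nonneg _) (Real.sqrt_nonneg _)
    refine Real.sqrt_le_sqrt ?_
    rw [star_star, variance_eq φ h1]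
    have hg := gap (star (x k))
    rw [star_star] at hg
    have hn : ‖φ (star (x k))‖ = ‖φ (x k)‖ := by
      rw [map_star φ (x k), norm_star]
    rw [hn] at hg
    refine hg.trans (le_of_eq ?_)
    congr 1
    refine Finset.sum_congr rfl fun a _ => ?_
    congr 1
    rw [← norm_star, star_sub, star_mul, star_mul, star_star]
  refine squeeze_zero_norm hbound ?_
  have h2 := ((Real.continuous_sqrt.tendsto 0).comp hG).mul_const
    (Real.sqrt (‖posCLM φ‖ * (‖y‖ * ‖y‖)))
  simpa using h2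

/-- A state with a spectral gap in finitely many commutators induces a character of
`F_ω(A)`. -/
def gapCharacter (ω : Ultrafilter ℕ) (φ : A →ₚ[ℂ] ℂ) (h1 : φ 1 = 1) (S : Finset A)
    (C : ℝ)
    (gap : ∀ x : A, (φ (star x * x)).re - ‖φ x‖ ^ 2 ≤ C * ∑ a ∈ S, ‖x * a - a * x‖ ^ 2) :
    centralSeqAlg A ω →⋆ₐ[ℂ] ℂ :=
  charOfAsympMult ω (posCLM φ) h1 (fun a => map_star φ a)
    (fun x y hx _ => tendsto_gap_mul ω φ h1 S C gap x y hx)

end Vale.Agent.Lib.P101

end
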